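import Vale.Agent.P167.H398.T.Near

/-!
# P167, general `q`, (TRACK): following a loop along the far side of a thin frame

Two exterior excursions of one loop, with all ends at squares of the state `b` and both with the bounded
side on the side of the sites kept by the state `b`, are equal, also for the interface (which passes
between closed and open squares at one edge `zb` from the far side).
-/

namespace Vale.Agent.P167.H398.T

open Finset
open Vale.Agent.P167.BR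
open Vale.Agent.P167.FK
open Vale.Agent.P167.XDL (bS mem_bS)
open Vale.Agent.P167.H199 (loop_iter Returns ret)
open Vale.Agent.P167.QX (exc ExtPot ExtConn mem_exc exc_last exc_ni exc_nx exc_disj far_edge
  returns_loop out_stays)

variable {D K I A A' : Finset (ℤ × ℤ)} {ω : Cfg} {ℓ : Finset Ed} {e e' y z zb : Ed}
  {φ φ' : ℤ × ℤ → ℤ} {b : Bool} {t : ℤ}

/-- Two disjoint excursions with the bounded side on the left, each on the left of the other. -/
theorem ext_two {A A' : Finset Ed} (hI : ExtConn I) (hφ : ExtPot I A 1 φ) (hφ' : ExtPot I A' 1 φ')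
    (he : e ∈ A) (h1 : hdv e ∉ I ∨ tlv e ∉ I) (hd : ∀ x ∈ A, x ∉ A')
    (k1 : ∀ x ∈ A', φ (ls x) = 1) (k2 : ∀ x ∈ A, φ' (ls x) = 1) : False := by
  have k0 : ∀ x ∈ A, φ (ls x) = 1 := fun x hx => by rw [hφ.left x hx]; norm_num
  obtain ⟨c, hc⟩ := hI (fun z => if φ z = 1 then 0 else 1 - φ' z) (fun x hx => by
    have j := hφ.jump x hx
    have j' := hφ'.jump x hx
    by_cases hxA : x ∈ A
    · have hxB : x ∉ A' := hd x hxA
      rw [if_pos hxA] at j
      rw [if_neg hxB, add_zero] at j'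
      have k1 := k0 x hxA
      have k2 := k2 x hxA
      rw [if_pos k1, if_neg (by omega)]
      omega
    · rw [if_neg hxA, add_zero] at j
      rw [← j]
      by_cases h3 : φ (ls x) = 1
      · rw [if_pos h3, if_pos h3]
      · have hxB : x ∉ A' := fun hx' => h3 (k1 x hx')
        rw [if_neg hxB, add_zero] at j'
        rw [if_neg h3, if_neg h3, j'])
  have hc0 := (hc e h1).1
  beta_reduce at hc0
  rw [if_pos (k0 e he)] at hc0
  obtain ⟨R, hR⟩ := hφ.far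
  obtain ⟨R', hR'⟩ := hφ'.far
  obtain ⟨x, hx, hx1, hx2⟩ := far_edge I R R'
  have hc1 := (hc x hx).1
  beta_reduce at hc1
  rw [hR _ (Or.inl hx1), hR' _ (Or.inl hx2), if_neg (by norm_num)] at hc1
  omega

/-- The same with the bounded side on the right. -/
theorem ext_two' {A A' : Finset Ed} (hI : ExtConn I) (hφ : ExtPot I A (-1) φ)
    (hφ' : ExtPot I A' (-1) φ')
    (he : e ∈ A) (h1 : hdv e ∉ I ∨ tlv e ∉ I) (hd : ∀ x ∈ A, x ∉ A')
    (k1 : ∀ x ∈ A', φ (rs x) = -1) (k2 : ∀ x ∈ A, φ' (rs x) = -1) : False := by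
  have k0 : ∀ x ∈ A, φ (rs x) = -1 := fun x hx => by rw [hφ.right x hx]; norm_num
  obtain ⟨c, hc⟩ := hI (fun z => if φ z = -1 then 0 else -1 - φ' z) (fun x hx => by
    have j := hφ.jump x hx
    have j' := hφ'.jump x hx
    by_cases hxA : x ∈ A
    · have hxB : x ∉ A' := hd x hxA
      rw [if_pos hxA] at j
      rw [if_neg hxB, add_zero] at j'
      have k1 := k0 x hxA
      have k2 := k2 x hxA
      rw [if_pos k1, if_neg (by omega)]
      omega
    · rw [if_neg hxA, add_zero] at j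
      rw [← j]
      by_cases h3 : φ (ls x) = -1
      · rw [if_pos h3, if_pos h3]
      · have hxB : x ∉ A' := fun hx' => h3 (by rw [j]; exact k1 x hx')
        rw [if_neg hxB, add_zero] at j'
        rw [if_neg h3, if_neg h3, j'])
  have hc0 := (hc e h1).2
  beta_reduce at hc0
  rw [if_pos (k0 e he)] at hc0
  obtain ⟨R, hR⟩ := hφ.far
  obtain ⟨R', hR'⟩ := hφ'.far
  obtain ⟨x, hx, hx1, hx2⟩ := far_edge I R R'
  have hc1 := (hc x hx).1
  beta_reduce at hc1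
  rw [hR _ (Or.inl hx1), hR' _ (Or.inl hx2), if_neg (by norm_num)] at hc1
  omega

/-- The value of the potential along the far side. -/
def vl (K : Finset (ℤ × ℤ)) (ω : Cfg) (b : Bool) (φ : ℤ × ℤ → ℤ) (y : Ed) : ℤ :=
  if hdv y ∈ K ∧ tlv y ∈ K then φ (sd (ω (hdv y)) y) else φ (sd b y)

/-- The far side: exterior edges and edges between two squares of `K` of the same state, entered from
the far side. -/
def Fr (D K : Finset (ℤ × ℤ)) (ω : Cfg) (ℓ : Finset Ed) (y : Ed) : Prop :=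
  (hdv y ∉ D ∧ tlv y ∉ D ∧ (hdv y ∉ K ∨ tlv y ∉ K)) ∨
    ∃ y₀ ∈ ℓ, tlv y₀ ∉ K ∧ tlv y₀ ∉ D ∧ hdv y₀ ∈ K ∧ y = nx ω y₀ ∧ ω (hdv y₀) = ω (hdv (nx ω y₀))

/-- The hypotheses on a loop at the far side of the frame. -/
structure FarH (D K : Finset (ℤ × ℤ)) (ω : Cfg) (ℓ : Finset Ed) (zb : Ed) : Prop where
  disj : ∀ v ∈ K, v ∉ D
  out : ∀ y ∈ ℓ, hdv y ∉ K → hdv y ∉ D → hdv (nx ω y) ∉ D
  arc : ∀ y ∈ ℓ, tlv y ∉ K → tlv y ∉ D → hdv y ∈ K → hdv (nx ω y) ∈ K ∧
    (ω (hdv y) = ω (hdv (nx ω y)) → hdv (nx ω (nx ω y)) ∉ K ∧ hdv (nx ω (nx ω y)) ∉ D) ∧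
    (ω (hdv y) ≠ ω (hdv (nx ω y)) → nx ω y = zb)
  zb : hdv zb ∈ K ∧ tlv zb ∈ K

/-- One step along the far side. -/
theorem far_step {A : Finset Ed} (H : FarH D K ω ℓ zb) (hy : y ∈ ℓ)
    (hA : ∀ y, hdv y ∉ K → (nx ω y ∈ A ↔ y ∈ A))
    (hφ : ∀ y, (hdv y ∉ D ∪ K ∨ tlv y ∉ D ∪ K) → φ (ls y) = φ (rs y) + if y ∈ A then 1 else 0)
    (hin : ∀ y ∈ A, tlv y ∈ K → ω (tlv y) = b) (hout : ∀ y ∈ A, hdv y ∈ K → ω (hdv y) = b)
    (h : Fr D K ω ℓ y) (hz : nx ω y ≠ zb) :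
    Fr D K ω ℓ (nx ω y) ∧ vl K ω b φ (nx ω y) = vl K ω b φ y := by
  have hnot : ∀ {v}, v ∉ K → v ∉ D → v ∉ D ∪ K := fun h1 h2 h3 =>
    (mem_union.1 h3).elim h2 h1
  rcases h with ⟨h1, h2, h3⟩ | ⟨y₀, g1, g2, g2', g3, rfl, g4⟩
  · by_cases hK : hdv y ∈ K
    · -- the loop enters `K`
      have hT : tlv y ∉ K := h3.resolve_left fun h => h hK
      obtain ⟨k1, k2, k3⟩ := H.arc y hy hT h2 hK
      have hc : ω (hdv y) = ω (hdv (nx ω y)) := by
        by_contra hc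
        exact hz (k3 hc)
      refine ⟨Or.inr ⟨y, hy, hT, h2, hK, rfl, hc⟩, ?_⟩
      unfold vl
      rw [if_pos ⟨k1, by rw [tlv_nx]; exact hK⟩, if_neg fun h => hT h.2, ← hc, sd_nx rfl]
      by_cases hcb : ω (hdv y) = b
      · rw [hcb]
      · have hyA : y ∉ A := fun h => hcb (hout y h hK)
        have := hφ y (Or.inr (hnot hT h2))
        rw [if_neg hyA, add_zero] at this
        exact sd_eq this _ _
    · -- exterior square
      have hD := H.out y hy hK h1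
      refine ⟨Or.inl ⟨hD, by rw [tlv_nx]; exact h1, Or.inr (by rw [tlv_nx]; exact hK)⟩, ?_⟩
      unfold vl
      rw [if_neg fun h => hK (by have := h.2; rwa [tlv_nx] at this), if_neg fun h => hK h.1]
      exact sd_step (hφ y (Or.inl (hnot hK h1)))
        (hφ _ (Or.inr (by rw [tlv_nx]; exact hnot hK h1))) (hA y hK) b
  · -- the loop leaves `K`
    obtain ⟨k1, k2, -⟩ := H.arc y₀ g1 g2 g2' g3
    obtain ⟨k2, k2'⟩ := k2 g4
    refine ⟨Or.inl ⟨k2', by rw [tlv_nx]; exact H.disj _ k1, Or.inl k2⟩, ?_⟩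
    unfold vl
    rw [if_neg fun h => k2 h.1, if_pos ⟨k1, by rw [tlv_nx]; exact g3⟩]
    have s1 : sd (ω (hdv (nx ω y₀))) (nx ω (nx ω y₀)) = sd (ω (hdv (nx ω y₀))) (nx ω y₀) :=
      sd_nx rfl
    by_cases hcb : ω (hdv (nx ω y₀)) = b
    · rw [← s1, hcb]
    · have a2 : nx ω (nx ω y₀) ∉ A := fun h => hcb (by
        have := hin _ h (by rw [tlv_nx]; exact k1)
        rwa [tlv_nx] at this)
      have b2 := hφ (nx ω (nx ω y₀)) (Or.inl (hnot k2 k2'))
      rw [if_neg a2, add_zero] at b2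
      rw [← s1]
      exact sd_eq b2 _ _

/-- Runs along the far side. -/
theorem far_run {A : Finset Ed} (H : FarH D K ω ℓ zb) (hl : IsLoop ω ℓ) (he : e ∈ ℓ)
    (hA : ∀ y, hdv y ∉ K → (nx ω y ∈ A ↔ y ∈ A))
    (hφ : ∀ y, (hdv y ∉ D ∪ K ∨ tlv y ∉ D ∪ K) → φ (ls y) = φ (rs y) + if y ∈ A then 1 else 0)
    (hin : ∀ y ∈ A, tlv y ∈ K → ω (tlv y) = b) (hout : ∀ y ∈ A, hdv y ∈ K → ω (hdv y) = b)
    (h : Fr D K ω ℓ e) {m : ℕ} (hz : ∀ k ≤ m, (nx ω)^[k] e ≠ zb) :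
    Fr D K ω ℓ ((nx ω)^[m] e) ∧ vl K ω b φ ((nx ω)^[m] e) = vl K ω b φ e := by
  induction m with
  | zero => exact ⟨h, rfl⟩
  | succ m ih =>
    obtain ⟨h1, h2⟩ := ih fun k hk => hz k (by omega)
    rw [Function.iterate_succ_apply']
    obtain ⟨h3, h4⟩ := far_step H (loop_iter hl he m) hA hφ hin hout h1 (by
      have := hz (m + 1) le_rfl
      rwa [Function.iterate_succ_apply'] at this)
    exact ⟨h3, h4.trans h2⟩

/-- Two elements of a loop can be reached from one element without passing `zb`. -/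
theorem cut_loop (hl : IsLoop ω ℓ) (he : e ∈ ℓ) (he' : e' ∈ ℓ) (h1 : e ≠ zb) (h2 : e' ≠ zb) :
    ∃ y₀ ∈ ℓ, ∃ i j : ℕ, (nx ω)^[i] y₀ = e ∧ (nx ω)^[j] y₀ = e' ∧
      ∀ k, (k ≤ i ∨ k ≤ j) → (nx ω)^[k] y₀ ≠ zb := by
  classical
  by_cases hzb : zb ∈ ℓ
  · have hy := H199.loop_nx hl hzb
    have key : ∀ x ∈ ℓ, x ≠ zb → ∃ i, (nx ω)^[i] (nx ω zb) = x ∧
        ∀ k ≤ i, (nx ω)^[k] (nx ω zb) ≠ zb := by
      intro x hx hxz
      have hex := (H685.loop_gen hl hy x).1 hx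
      refine ⟨Nat.find hex, Nat.find_spec hex, fun k hk h3 => ?_⟩
      rcases Nat.lt_or_ge k (Nat.find hex) with h4 | h4
      · have h5 : (nx ω)^[Nat.find hex - (k + 1)] (nx ω zb) = x := by
          have h6 := Nat.find_spec hex
          have h7 : Nat.find hex = (Nat.find hex - (k + 1)) + (k + 1) := by omega
          rw [h7, Function.iterate_add_apply, Function.iterate_succ_apply', h3] at h6
          exact h6
        exact Nat.find_min hex (by omega) h5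
      · have h5 : k = Nat.find hex := by omega
        rw [h5, Nat.find_spec hex] at h3
        exact hxz h3
    obtain ⟨i, hi, hi'⟩ := key e he h1
    obtain ⟨j, hj, hj'⟩ := key e' he' h2
    exact ⟨_, hy, i, j, hi, hj, fun k hk => hk.elim (hi' k) (hj' k)⟩
  · obtain ⟨m, hm⟩ := (H685.loop_gen hl he e').1 he'
    exact ⟨e, he, 0, m, rfl, hm, fun k _ h => hzb (h ▸ loop_iter hl he k)⟩

end Vale.Agent.P167.H398.T
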