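import Vale.Agent.P167.QX.Trap

/-!
# P167, general `q`, (TRACK): following a loop along the near side of a thin frame

`D` the domain, `K` the frozen squares around it (thin: a loop which enters `K` visits two squares and
leaves). A loop with a strand in `D` which has both ends at squares of the state `b`: the potential of
the strand is constant along the loop (on the side of the sites which the squares of state `b` keep)
until the loop passes between a closed and an open square.
-/

namespace Vale.Agent.P167.H398.T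

open Finset
open Vale.Agent.P167.BR
open Vale.Agent.P167.FK
open Vale.Agent.P167.H199 (loop_iter)

variable {D K : Finset (ℤ × ℤ)} {ω : Cfg} {ℓ A : Finset Ed} {e y z : Ed} {φ : ℤ × ℤ → ℤ} {b c : Bool}

/-- The site which is kept by the squares of the state `b`. -/
def sd (b : Bool) (y : Ed) : ℤ × ℤ := if b = true then rs y else ls y

theorem sd_nx (h : ω (hdv y) = b) : sd b (nx ω y) = sd b y := by
  unfold sd
  cases b
  · rw [if_neg (by decide), if_neg (by decide), ls_nx h]
  · rw [if_pos rfl, if_pos rfl, rs_nx h]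

/-- Off `A` both sides of an edge have the same potential. -/
theorem sd_eq (h : φ (ls y) = φ (rs y)) (b c : Bool) : φ (sd b y) = φ (sd c y) := by
  unfold sd
  split_ifs
  · rfl
  · exact h.symm
  · exact h
  · rfl

/-- The potential of both sides after a square which is not at an end of `A`. -/
theorem sd_step (h1 : φ (ls y) = φ (rs y) + if y ∈ A then 1 else 0)
    (h2 : φ (ls (nx ω y)) = φ (rs (nx ω y)) + if nx ω y ∈ A then 1 else 0)
    (hA : nx ω y ∈ A ↔ y ∈ A) (b : Bool) : φ (sd b (nx ω y)) = φ (sd b y) := by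
  rw [if_congr hA rfl rfl] at h2
  cases hω : ω (hdv y) with
  | false =>
    have g := ls_nx hω
    cases b
    · exact congrArg φ (sd_nx hω)
    · show φ (rs (nx ω y)) = φ (rs y)
      rw [g] at h2
      linarith
  | true =>
    have g := rs_nx hω
    cases b
    · show φ (ls (nx ω y)) = φ (ls y)
      rw [g] at h2
      linarith
    · exact congrArg φ (sd_nx hω)

/-- **Following a loop along the near side.** -/
theorem near_track (hl : IsLoop ω ℓ) (he : e ∈ ℓ) (hDK : ∀ v ∈ K, v ∉ D)
    (hA : ∀ y, hdv y ∈ D → (nx ω y ∈ A ↔ y ∈ A))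
    (hφ : ∀ y, (hdv y ∈ D ∨ tlv y ∈ D) → φ (ls y) = φ (rs y) + if y ∈ A then 1 else 0)
    (hin : ∀ y ∈ A, tlv y ∉ D → ω (tlv y) = b) (hout : ∀ y ∈ A, hdv y ∉ D → ω (hdv y) = b)
    (heD : hdv e ∈ D) {s : ℤ × ℤ}
    (hN : ∀ y ∈ ℓ, tlv y ∈ D → hdv y ∉ D → hdv y ∈ K ∧ hdv (nx ω y) ∈ K ∧
      (ω (hdv y) = ω (hdv (nx ω y)) → hdv (nx ω (nx ω y)) ∈ D) ∧
      (ω (hdv y) ≠ ω (hdv (nx ω y)) → sd (ω (hdv y)) (nx ω y) = s))
    (hne : φ s ≠ φ (sd b e)) (hz : z ∈ ℓ) (hz1 : hdv z ∈ K) (hz2 : tlv z ∈ K)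
    (hz3 : ω (hdv z) ≠ ω (tlv z)) : False := by
  obtain ⟨t, ht⟩ : ∃ t, t = φ (sd b e) := ⟨_, rfl⟩
  rw [← ht] at hne
  -- the invariant
  have key : ∀ m, ((hdv ((nx ω)^[m] e) ∈ D ∨ tlv ((nx ω)^[m] e) ∈ D) ∧
      φ (sd b ((nx ω)^[m] e)) = t) ∨
      ∃ y₀ ∈ ℓ, tlv y₀ ∈ D ∧ hdv y₀ ∉ D ∧ (nx ω)^[m] e = nx ω y₀ ∧ φ (sd b y₀) = t ∧
        ω (hdv y₀) = ω (hdv (nx ω y₀)) := by
    intro m
    induction m with
    | zero => exact Or.inl ⟨Or.inl heD, ht.symm⟩
    | succ m ih =>
      rw [Function.iterate_succ_apply']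
      have hm := loop_iter hl he m
      generalize (nx ω)^[m] e = y at ih hm
      rcases ih with ⟨h1, h2⟩ | ⟨y₀, hy₀, g1, g2, rfl, g4, g5⟩
      · by_cases hy : hdv y ∈ D
        · left
          refine ⟨Or.inr (by rw [tlv_nx]; exact hy), ?_⟩
          rw [sd_step (hφ y (Or.inl hy)) (hφ _ (Or.inr (by rw [tlv_nx]; exact hy))) (hA y hy) b,
            h2]
        · have hy' := h1.resolve_left hy
          obtain ⟨k1, k2, k3, k4⟩ := hN y hm hy' hy
          by_cases hc : ω (hdv y) = ω (hdv (nx ω y))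
          · exact Or.inr ⟨y, hm, hy', hy, rfl, h2, hc⟩
          · exfalso
            apply hne
            rw [← k4 hc, sd_nx rfl]
            by_cases hcb : ω (hdv y) = b
            · rw [hcb, h2]
            · have hyA : y ∉ A := fun h => hcb (hout y h hy)
              have := hφ y (Or.inr hy')
              rw [if_neg hyA, add_zero] at this
              rw [sd_eq this _ b, h2]
      · left
        obtain ⟨k1, k2, k3, -⟩ := hN y₀ hy₀ g1 g2
        refine ⟨Or.inl (k3 g5), ?_⟩
        have s1 : sd (ω (hdv y₀)) (nx ω (nx ω y₀)) = sd (ω (hdv y₀)) y₀ := by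
          rw [sd_nx g5.symm, sd_nx rfl]
        by_cases hcb : ω (hdv y₀) = b
        · rw [hcb] at s1
          rw [s1, g4]
        · have a1 : y₀ ∉ A := fun h => hcb (hout _ h g2)
          have a2 : nx ω (nx ω y₀) ∉ A := fun h => hcb (by
            have := hin _ h (by rw [tlv_nx]; exact hDK _ k2)
            rw [tlv_nx] at this
            rw [g5, this])
          have b1 := hφ y₀ (Or.inr g1)
          have b2 := hφ (nx ω (nx ω y₀)) (Or.inl (k3 g5))
          rw [if_neg a1, add_zero] at b1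
          rw [if_neg a2, add_zero] at b2
          rw [sd_eq b2 b (ω (hdv y₀)), s1, sd_eq b1 _ b, g4]
  obtain ⟨m, rfl⟩ := (H685.loop_gen hl he z).1 hz
  rcases key m with ⟨h1 | h1, -⟩ | ⟨y₀, -, -, -, h2, -, h3⟩
  · exact hDK _ hz1 h1
  · exact hDK _ hz2 h1
  · rw [h2, tlv_nx] at hz3
    exact hz3 h3.symm

end Vale.Agent.P167.H398.T
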