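import Vale.Agent.P167.H398.T.Near
import Vale.Agent.P167.H680.S.ADefs

/-!
# P167, general `q`, (TRACK), (C4): the inner strands of the interface

`near_cl`: a strand of the interface in the domain with both ends at squares of the same state is not
closed by the boundary.
-/

namespace Vale.Agent.P167.H398.T

open Finset
open Vale.Agent.P167.FK
open Vale.Agent.P167.BR
open Vale.Agent.P167.Top
open Vale.Agent.P167.H871
open Vale.Agent.P167.H871.Q
open Vale.Agent.P167.H199 (ret Returns loop_iter ret_min)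
open Vale.Agent.P167.XDL (bS mem_bS P4_be)
open Vale.Agent.P167.QX (out_stays exc_last VisL returns_loop)
open Vale.Agent.P167.H680.T (uI mem_uI)
open Vale.Agent.P167.H680.S (IsN IsF ArcS ArcH)
open Vale.Agent.P167.H825.Q (Row)

variable {ι : Type} [Fintype ι] {r : ι → Row} {θ β : ℝ} {x y : Ed} {ω : Cfg} {n : ℕ}
  {q : ZMod n → ℤ × ℤ} {D : Finset (ℤ × ℤ)} {u : ℕ → ℤ} {ka c N i j : ℕ} {s e : ℕ → ℕ}
  {ℓ : Finset Ed} {B : Set (ℤ × ℤ)}

/-- Every edge of a loop has a predecessor. -/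
theorem loop_pre (hl : IsLoop ω ℓ) (hy : y ∈ ℓ) : ∃ y' ∈ ℓ, nx ω y' = y := by
  classical
  have hb : ℓ.image (nx ω) = ℓ := by
    apply eq_of_subset_of_card_le
    · intro y hy
      obtain ⟨x, hx, rfl⟩ := mem_image.1 hy
      exact H199.loop_nx hl hx
    · rw [card_image_of_injective _ (s_nx ω).1]
  rw [← hb, mem_image] at hy
  obtain ⟨x, hx, rfl⟩ := hy
  exact ⟨x, hx, rfl⟩

section

variable (F : Fam θ β r q D u ka c N s e)
include F

/-- The index in the window. -/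
theorem idx_red (hi : InK n c N s e i) : ∃ a < N, ∃ w, s a ≤ w ∧ w < e a ∧ (w + c) % n = i ∧
    q ((w + c : ℕ) : ZMod n) = q (i : ZMod n) ∧ (u (w + c)) % 4 = (u i) % 4 := by
  obtain ⟨w, ⟨a, ha, h1, h2⟩, h3⟩ := hi
  have h4 := F.hR.h3 a ha
  have hc := F.hc
  refine ⟨a, ha, w, h1, h2, h3, by rw [← h3, ZMod.natCast_mod], ?_⟩
  rcases Nat.lt_or_ge (w + c) n with h | h
  · rw [Nat.mod_eq_of_lt h] at h3
    rw [h3]
  · have h5 : (w + c) % n = w + c - n := by
      rw [Nat.mod_eq_sub_mod h, Nat.mod_eq_of_lt (by omega)]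
    have h6 := F.hu.per (w + c - n)
    rw [Nat.sub_add_cancel h, ← h5, h3] at h6
    rw [h6]
    omega

/-- The square beyond a step of a row. -/
theorem byd_nin (hi : InK n c N s e i) :
    sqL (q (i : ZMod n) + vec (u i - 1)) (u i - 1) ∉ D := by
  obtain ⟨a, ha, w, h1, h2, -, h4, h5⟩ := idx_red F hi
  have h6 := (F.hR.bmp ha).byd h1 h2
  have h7 := F.hR.str a ha w (by omega) (by omega)
  rw [← h7] at h6
  have h8 : sqL (q ((w + c : ℕ) : ZMod n) + vec (u (w + c) - 1)) (u (w + c) - 1) ∉ (D : Set _) :=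
    fun h => h6 (Or.inl h)
  rw [h4, vec_congr (d' := u i - 1) (by omega), sqL_congr (d' := u i - 1) (by omega)] at h8
  exact h8

/-- The squares of the rows. -/
theorem sq_mem (hi : i < n) (h : InK n c N s e i) : sqL (q (i : ZMod n)) (u i - 1) ∈ uI r := by
  obtain ⟨y, h1, -⟩ := F.ph i hi h
  exact mem_uI.2 ⟨y, h1⟩

/-- The near side of a step. -/
theorem near_sq (h : IsN q x i) : (hdv x ∈ D ∧ tlv x = sqL (q (i : ZMod n)) (u i - 1)) ∨
    (tlv x ∈ D ∧ hdv x = sqL (q (i : ZMod n)) (u i - 1)) := by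
  have h1 : P4 x = M4 (q (i : ZMod n)) (u i) := by
    rw [show x = be q (i : ZMod n) from h]; exact P4_be F.hq F.hu i
  have h2 : sqL (q (i : ZMod n)) (u i) ∈ D := mem_coe.1 (F.hu.left i)
  rcases side h1 with ⟨-, h3, h4⟩ | ⟨-, h3, h4⟩
  · exact Or.inl ⟨h3 ▸ h2, h4⟩
  · exact Or.inr ⟨h4 ▸ h2, h3⟩

/-- The far side of a step. -/
theorem far_sq (hi : InK n c N s e i) (h : IsF q u x i) :
    (hdv x = sqL (q (i : ZMod n)) (u i - 1) ∧ tlv x ∉ D) ∨
      (tlv x = sqL (q (i : ZMod n)) (u i - 1) ∧ hdv x ∉ D) := by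
  have h2 := byd_nin F hi
  have h3 : sqL (q (i : ZMod n) + vec (u i - 1)) (u i) = sqL (q (i : ZMod n)) (u i - 1) := by
    have := sqL_next' (q (i : ZMod n)) (u i - 1)
    rwa [sub_add_cancel] at this
  rcases side (show P4 x = _ from h) with ⟨-, h4, h5⟩ | ⟨-, h4, h5⟩
  · exact Or.inl ⟨by rw [h4, h3], by rw [h5]; exact h2⟩
  · exact Or.inr ⟨by rw [h5, h3], by rw [h4]; exact h2⟩

omit F in
/-- The strand in the domain. -/
theorem stays (hB2 : ∀ y ∈ bS D, y ∉ bS (uI r) → hdv y ∈ B) (hl : IsLoop ω ℓ)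
    (hv : ¬ VisL B ℓ) (hx : x ∈ ℓ) :
    ∀ k < ret (nx ω) (bS (uI r)) x, (hdv ((nx ω)^[k] x) ∈ D ↔ hdv x ∈ D) := by
  have hnv : ∀ y ∈ ℓ, hdv y ∉ B := fun y hy h => hv ⟨y, hy, h⟩
  have hit : ∀ k, (nx ω)^[k] x ∈ ℓ := loop_iter hl hx
  have hstep : ∀ k, k + 1 < ret (nx ω) (bS (uI r)) x →
      (hdv ((nx ω)^[k] x) ∈ D ↔ hdv ((nx ω)^[k + 1] x) ∈ D) := by
    intro k hk
    by_contra hne
    have h1 : (nx ω)^[k + 1] x ∈ bS D := by
      rw [mem_bS]
      have h2 : tlv ((nx ω)^[k + 1] x) = hdv ((nx ω)^[k] x) := by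
        rw [Function.iterate_succ_apply', tlv_nx]
      rw [h2]
      tauto
    exact hnv _ (hit _) (hB2 _ h1 (ret_min (by omega) hk))
  intro k
  induction k with
  | zero => intro _; rfl
  | succ k ih => intro hk; rw [← hstep k hk]; exact ih (by omega)

/-- An edge of the loop from the domain. -/
theorem near_arc (hA : ArcH r q u c N s e) (hB1 : ∀ v ∈ endK q u c N s e, v ∈ B)
    (hB2 : ∀ y ∈ bS D, y ∉ bS (uI r) → hdv y ∈ B) (hl : IsLoop ω ℓ) (hv : ¬ VisL B ℓ) (hy : y ∈ ℓ)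
    (h1 : tlv y ∈ D) (h2 : hdv y ∉ D) :
    hdv y ∈ uI r ∧ ∃ i j, ArcS r q u c N s e ω y i j ∧ IsN q y i := by
  have hnv : ∀ y ∈ ℓ, hdv y ∉ B := fun y hy h => hv ⟨y, hy, h⟩
  have h3 : y ∈ bS (uI r) := by
    by_contra h
    exact hnv _ hy (hB2 _ (mem_bS.2 (Or.inr ⟨h2, h1⟩)) h)
  have h4 : tlv y ∉ uI r := fun h => F.nin h h1
  have h5 : hdv y ∈ uI r := by
    rcases mem_bS.1 h3 with h | h
    · exact h.1
    · exact absurd h.2 h4
  obtain ⟨y', hy', hyy⟩ := loop_pre hl hy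
  obtain ⟨i, j, hs⟩ := hA ω y h5 h4
    (fun h => hnv _ hy' (by rw [← hyy, tlv_nx] at h; exact hB1 _ h))
    (fun h => hnv _ (H199.loop_nx hl hy) (hB1 _ h))
  refine ⟨h5, i, j, hs, ?_⟩
  have key : ¬ IsF q u y i := by
    intro h
    rcases far_sq F hs.ri h with ⟨-, h6⟩ | ⟨h6, -⟩
    · exact h6 h1
    · exact h4 (h6 ▸ sq_mem F hs.hi hs.ri)
  rcases hs.cs with ⟨⟨h, -⟩ | ⟨h, -⟩, -⟩ | ⟨⟨h, -⟩ | ⟨h, -⟩, -⟩
  · exact h
  · exact absurd h key
  · exact h
  · exact absurd h key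

/-- An edge of the loop from the outside. -/
theorem far_arc (hA : ArcH r q u c N s e) (hB1 : ∀ v ∈ endK q u c N s e, v ∈ B)
    (hl : IsLoop ω ℓ) (hv : ¬ VisL B ℓ) (hy : y ∈ ℓ)
    (h1 : tlv y ∉ D) (h2 : tlv y ∉ uI r) (h3 : hdv y ∈ uI r) :
    ∃ i j, ArcS r q u c N s e ω y i j ∧ IsF q u y i := by
  have hnv : ∀ y ∈ ℓ, hdv y ∉ B := fun y hy h => hv ⟨y, hy, h⟩
  obtain ⟨y', hy', hyy⟩ := loop_pre hl hy
  obtain ⟨i, j, hs⟩ := hA ω y h3 h2
    (fun h => hnv _ hy' (by rw [← hyy, tlv_nx] at h; exact hB1 _ h))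
    (fun h => hnv _ (H199.loop_nx hl hy) (hB1 _ h))
  refine ⟨i, j, hs, ?_⟩
  have key : ¬ IsN q y i := by
    intro h
    rcases near_sq F h with ⟨h6, -⟩ | ⟨h6, -⟩
    · exact F.nin h3 h6
    · exact h1 h6
  rcases hs.cs with ⟨⟨h, -⟩ | ⟨h, -⟩, -⟩ | ⟨⟨h, -⟩ | ⟨h, -⟩, -⟩
  · exact absurd h key
  · exact h
  · exact absurd h key
  · exact h

end

/-- The square after an arc. -/
theorem arc_out (hl : IsLoop ω ℓ) (hy : y ∈ ℓ) (h1 : hdv y ∈ uI r) (h2 : tlv y ∉ uI r)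
    (hs : ArcS r q u c N s e ω y i j) (h3 : hdv (nx ω y) ∈ uI r) :
    hdv (nx ω (nx ω y)) ∉ uI r := by
  have hr : Returns (nx ω) (bS (uI r)) y := returns_loop hl hy (mem_bS.2 (Or.inl ⟨h1, h2⟩))
  have h4 := hr.spec.2
  rw [hs.ret] at h4
  rcases mem_bS.1 h4 with h | h
  · exfalso
    have h5 : tlv ((nx ω)^[2] y) = hdv (nx ω y) := by
      rw [Function.iterate_succ_apply', tlv_nx]; rfl
    exact h.2 (h5 ▸ h3)
  · exact h.1

/-- **(C4)**, with the threshold `k₀ ≤ n`. -/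
theorem near_cl₀ (F : Fam θ β r q D u ka c N s e) (hA : ArcH r q u c N s e) {k₀ : ℕ} (hk : k₀ ≤ n)
    (hcol : ∀ z < n, InK n c N s e z → ω (sqL (q (z : ZMod n)) (u z - 1)) = decide (¬ z < k₀))
    (hB1 : ∀ v ∈ endK q u c N s e, v ∈ B)
    (hB2 : ∀ y ∈ bS D, y ∉ bS (uI r) → hdv y ∈ B) (hl : IsLoop ω ℓ) (hv : ¬ VisL B ℓ)
    (hz : ∃ z ∈ ℓ, hdv z ∈ uI r ∧ tlv z ∈ uI r ∧ ω (hdv z) ≠ ω (tlv z)) {g : Ed} (hg : g ∈ ℓ)
    (g1 : hdv g ∈ D) (g2 : tlv g ∈ uI r) {x y : ℕ} (hx : x < n) (hy : y < n)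
    (ex : g = be q (x : ZMod n)) (ey : (nx ω)^[ret (nx ω) (bS (uI r)) g] g = be q (y : ZMod n))
    (hc : ω (tlv g) = ω (hdv ((nx ω)^[ret (nx ω) (bS (uI r)) g] g))) : ¬ H718.Cl k₀ x y := by
  intro hCl
  have hg0 : hdv g ∉ uI r := fun h => F.nin h g1
  have hr : Returns (nx ω) (bS (uI r)) g := returns_loop hl hg (mem_bS.2 (Or.inr ⟨hg0, g2⟩))
  obtain ⟨hlast1, hlast2⟩ := exc_last hg0 hr
  have hst := stays hB2 hl hv hg
  obtain ⟨hm, -⟩ := hr.spec
  obtain ⟨fl, hfl⟩ : ∃ fl, fl = (nx ω)^[ret (nx ω) (bS (uI r)) g] g := ⟨_, rfl⟩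
  rw [← hfl] at ey hc hlast1 hlast2
  have hft : tlv fl ∈ D := by
    obtain ⟨m, hm'⟩ : ∃ m, ret (nx ω) (bS (uI r)) g = m + 1 :=
      ⟨ret (nx ω) (bS (uI r)) g - 1, by omega⟩
    rw [hfl, hm', Function.iterate_succ_apply', tlv_nx]
    exact (hst m (by omega)).2 g1
  -- the piece
  have hgm : g ∈ eds D := mem_eds.2 (Or.inl g1)
  have hAp := piece_mem_pcs (ω := ω) hgm
  have hgA := self_mem_piece (ω := ω) hgm
  have hfA : fl ∈ piece ω D g :=
    (mem_of_run hAp (k := ret (nx ω) (bS (uI r)) g) ⟨hfl.symm, fun k hk => (hst k hk).2 g1⟩).1 hgA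
  obtain ⟨φ, hφ⟩ := exists_pot F.hq F.hD hAp
  have hflD : hdv fl ∉ D := F.nin hlast1
  have hgD : tlv g ∉ D := F.nin g2
  -- the parities
  have hevx : Even ((q (x : ZMod n)).1 + (q (x : ZMod n)).2) := by
    by_contra h
    exact (ex ▸ hgD) (be_odd F.hq F.hD h).2.2.1
  have hody : ¬ Even ((q (y : ZMod n)).1 + (q (y : ZMod n)).2) := by
    intro h
    exact (ey ▸ hflD) (be_even F.hq F.hD h).2.2.1
  have hxy : H718.IsXY q (piece ω D g) x y := ⟨hx, hy, ex ▸ hgA, ey ▸ hfA, hevx, hody⟩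
  have hlft := H718.pot_lft F.hq F.hD hAp hφ hxy hk
  rw [← ex] at hlft
  -- the colours of the ends
  have tlg : tlv g = sqL (q (x : ZMod n)) (u x - 1) := by
    rcases near_sq F (show IsN q g x from ex) with ⟨-, h⟩ | ⟨h, -⟩
    · exact h
    · exact absurd h hgD
  have hdf : hdv fl = sqL (q (y : ZMod n)) (u y - 1) := by
    rcases near_sq F (show IsN q fl y from ey) with ⟨h, -⟩ | ⟨-, h⟩
    · exact absurd h hflD
    · exact h
  have rx : InK n c N s e x := F.inK hx (tlg ▸ g2)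
  have ry : InK n c N s e y := F.inK hy (hdf ▸ hlast1)
  have cx := hcol x hx rx
  have cy := hcol y hy ry
  rw [← tlg] at cx
  rw [← hdf] at cy
  obtain ⟨z, hzl, hz1, hz2, hz3⟩ := hz
  have hjump := hφ g hgm
  rw [if_pos hgA] at hjump
  refine near_track (D := D) (K := uI r) (A := piece ω D g) (φ := φ) (b := ω (tlv g)) hl hg
    (fun v hv => F.nin hv) (fun y hy => (nx_mem_iff hAp hy).symm)
    (fun y hy => hφ y (mem_eds.2 hy)) (fun y hy h => ?_) (fun y hy h => ?_) g1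
    (s := q (k₀ : ZMod n)) (fun y hy h1 h2 => ?_) ?_ hzl hz1 hz2 hz3
  · rw [entry_unique hAp hy hgA h hgD]
  · rw [exit_unique hAp hy hfA h hflD, hc]
  · -- the arcs
    obtain ⟨k1, i, j, hs, hN⟩ := near_arc F hA hB1 hB2 hl hv hy h1 h2
    have h4 : tlv y ∉ uI r := fun h => F.nin h h1
    have k2 : hdv (nx ω y) ∈ uI r := hs.hd1 ▸ sq_mem F hs.hj hs.rj
    have k3 := arc_out hl hy k1 h4 hs k2
    have ci := hcol i hs.hi hs.ri
    have cj := hcol j hs.hj hs.rj
    rw [← hs.hd] at ci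
    rw [← hs.hd1] at cj
    have hnF : ¬ IsF q u y i := by
      intro h
      rcases far_sq F hs.ri h with ⟨-, h6⟩ | ⟨h6, -⟩
      · exact h6 h1
      · exact h4 (h6 ▸ sq_mem F hs.hi hs.ri)
    have hout : IsN q (nx ω (nx ω y)) j → hdv (nx ω (nx ω y)) ∈ D := by
      intro h
      rcases near_sq F h with ⟨h5, -⟩ | ⟨-, h5⟩
      · exact h5
      · exact absurd (h5 ▸ sq_mem F hs.hj hs.rj) k3
    have hi := hs.hi
    have hj := hs.hj
    refine ⟨k1, k2, fun hcc => ?_, fun hcc => ?_⟩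
    · rcases hs.cs with ⟨h, -, -, -, -, h5, -⟩ | ⟨h, -, -, -, -, h5, -⟩
      · exact hout (h5 (by rw [← hcc]; exact (h.resolve_right fun h => hnF h.1).2))
      · exact hout (h5 (by rw [← hcc]; exact (h.resolve_right fun h => hnF h.1).2))
    · rcases hs.cs with ⟨h, h6, -, h7, -, -, -⟩ | ⟨h, h6, -, h7, -, -, -⟩
      · have c1 : ω (hdv y) = false := (h.resolve_right fun h => hnF h.1).2
        have c2 : ω (hdv (nx ω y)) = true := by
          rw [c1] at hcc
          simpa using hcc.symm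
        rw [c1] at ci
        rw [c2] at cj
        have ci' : i < k₀ := by
          by_contra h
          rw [decide_eq_true h] at ci
          exact absurd ci (by decide)
        have cj' : ¬ j < k₀ := by
          intro h
          rw [decide_eq_false (not_not.2 h)] at cj
          exact absurd cj (by decide)
        have e1 : j = k₀ := by
          rcases (by omega : i + 1 < n ∨ i + 1 = n) with h | h
          · rw [Nat.mod_eq_of_lt h] at h6
            omega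
          · rw [h, Nat.mod_self] at h6
            omega
        rw [c1, ← e1]
        unfold sd
        rw [if_neg (by decide), h7]
      · have c1 : ω (hdv y) = true := (h.resolve_right fun h => hnF h.1).2
        have c2 : ω (hdv (nx ω y)) = false := by
          rw [c1] at hcc
          simpa using hcc.symm
        rw [c1] at ci
        rw [c2] at cj
        have ci' : ¬ i < k₀ := by
          intro h
          rw [decide_eq_false (not_not.2 h)] at ci
          exact absurd ci (by decide)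
        have cj' : j < k₀ := by
          by_contra h
          rw [decide_eq_true h] at cj
          exact absurd cj (by decide)
        have e1 : i = k₀ := by
          rcases (by omega : j + 1 < n ∨ j + 1 = n) with h | h
          · rw [Nat.mod_eq_of_lt h] at h6
            omega
          · rw [h, Nat.mod_self] at h6
            omega
        rw [c1, ← e1]
        unfold sd
        rw [if_pos rfl, h7]
  · -- the site
    rcases hCl with ⟨h1, h2, h3⟩ | ⟨h1, h2, h3⟩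
    · rw [decide_eq_false (not_not.2 h1)] at cx
      rw [cx]
      unfold sd
      rw [if_neg (by decide), hjump, hlft, if_neg (show ¬ H718.lft x y k₀ by unfold H718.lft; omega)]
      omega
    · rw [decide_eq_true (show ¬ x < k₀ by omega)] at cx
      rw [cx]
      unfold sd
      rw [if_pos rfl, hlft, if_pos (show H718.lft x y k₀ by unfold H718.lft; omega)]
      omega

/-- **(C4)**: a strand of the interface in the domain with both ends at squares of the same state is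
not closed by the boundary. -/
theorem near_cl (F : Fam θ β r q D u ka c N s e) (hA : ArcH r q u c N s e)
    (hcol : ∀ z < n, InK n c N s e z → ω (sqL (q (z : ZMod n)) (u z - 1)) = decide (¬ z < ka))
    (hB1 : ∀ v ∈ endK q u c N s e, v ∈ B)
    (hB2 : ∀ y ∈ bS D, y ∉ bS (uI r) → hdv y ∈ B) (hl : IsLoop ω ℓ) (hv : ¬ VisL B ℓ)
    (hz : ∃ z ∈ ℓ, hdv z ∈ uI r ∧ tlv z ∈ uI r ∧ ω (hdv z) ≠ ω (tlv z)) {g : Ed} (hg : g ∈ ℓ)
    (g1 : hdv g ∈ D) (g2 : tlv g ∈ uI r) {x y : ℕ} (hx : x < n) (hy : y < n)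
    (ex : g = be q (x : ZMod n)) (ey : (nx ω)^[ret (nx ω) (bS (uI r)) g] g = be q (y : ZMod n))
    (hc : ω (tlv g) = ω (hdv ((nx ω)^[ret (nx ω) (bS (uI r)) g] g))) : ¬ H718.Cl ka x y := by
  have h := near_cl₀ F hA (min_le_right ka n) (fun z hz hzK => by
    rw [hcol z hz hzK]
    congr 1
    simp only [lt_min_iff, hz, and_true]) hB1 hB2 hl hv hz hg g1 g2 hx hy ex ey hc
  intro h'
  apply h
  unfold H718.Cl at h' ⊢
  rcases le_total ka n with h1 | h1
  · rw [min_eq_left h1]; exact h'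
  · rw [min_eq_right h1]; omega

end Vale.Agent.P167.H398.T
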