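import Vale.Agent.P167.H398.T.Two
import Vale.Agent.P167.H398.T.TrN
import Vale.Agent.P167.H662.X.ExtC
import Vale.Agent.P167.H640.ND.SymX
import Vale.Agent.P167.H871.RingDet

/-!
# P167, general `q`, (TRACK), (C6): the outer strands of the interface

`far_closed`, `far_open`: at most one exterior strand of a loop which passes between closed and
open squares has its ends at closed squares and the bounded side on the left (open squares: on the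
right).
-/

namespace Vale.Agent.P167.H398.T

open Finset
open Vale.Agent.P167.FK
open Vale.Agent.P167.BR
open Vale.Agent.P167.Top
open Vale.Agent.P167.H871
open Vale.Agent.P167.H871.Q
open Vale.Agent.P167.H199 (ret Returns loop_iter ret_min)
open Vale.Agent.P167.XDL (bS mem_bS P4_be)
open Vale.Agent.P167.QX (out_stays exc_last VisL returns_loop ExtConn ExtPot exc)
open Vale.Agent.P167.H680.T (uI mem_uI)
open Vale.Agent.P167.H680.S (IsN IsF ArcS ArcH)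
open Vale.Agent.P167.H825.Q (Row)

variable {ι : Type} [Fintype ι] {r : ι → Row} {θ β : ℝ} {x y : Ed} {ω : Cfg} {n : ℕ}
  {q : ZMod n → ℤ × ℤ} {D : Finset (ℤ × ℤ)} {u : ℕ → ℤ} {ka c N i j : ℕ} {s e : ℕ → ℕ}
  {ℓ : Finset Ed} {B : Set (ℤ × ℤ)}

/-- The outside of the domain and the rows is connected. -/
theorem extConn_fam (F : Fam θ β r q D u ka c N s e) : ExtConn (D ∪ uI r) := by
  obtain ⟨n', P', u', ι', g1, g2, g3, -⟩ := exists_bumps F.hR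
  rw [← F.hK, ← coe_union] at g1 g2
  have := F.hq.1
  exact H662.X.extConn_bd g1 g2 (by omega)

/-- An arc from the far side between squares of different states is over the base point. -/
theorem far_site (F : Fam θ β r q D u ka c N s e)
    (hcol : ∀ z < n, InK n c N s e z → ω (sqL (q (z : ZMod n)) (u z - 1)) = decide (¬ z < ka))
    (hs : ArcS r q u c N s e ω y i j) (h1 : hdv y ∈ uI r)
    (h2 : tlv y ∉ D) (hne : ω (hdv y) ≠ ω (hdv (nx ω y))) :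
    (ls (nx ω y) = q ((0 : ℕ) : ZMod n) ∧ rs (nx ω y) = yK q u 0) ∨
      (rs (nx ω y) = q ((0 : ℕ) : ZMod n) ∧ ls (nx ω y) = yK q u 0) := by
  have ci := hcol i hs.hi hs.ri
  have cj := hcol j hs.hj hs.rj
  rw [← hs.hd] at ci
  rw [← hs.hd1] at cj
  have hnN : ¬ IsN q y i := by
    intro h
    rcases near_sq F h with ⟨h6, -⟩ | ⟨h6, -⟩
    · exact F.nin h1 h6
    · exact h2 h6
  have hi := hs.hi
  have hj := hs.hj
  rcases hs.cs with ⟨h, h6, -, h7, h8, -, -⟩ | ⟨h, h6, -, h7, h8, -, -⟩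
  · left
    have c1 : ω (hdv y) = true := (h.resolve_left fun h => hnN h.1).2
    have c2 : ω (hdv (nx ω y)) = false := by
      rw [c1] at hne
      simpa using hne.symm
    rw [c1] at ci
    rw [c2] at cj
    have ci' : ¬ i < ka := by
      intro h
      rw [decide_eq_false (not_not.2 h)] at ci
      exact absurd ci (by decide)
    have cj' : j < ka := by
      by_contra h
      rw [decide_eq_true h] at cj
      exact absurd cj (by decide)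
    have e1 : j = 0 := by
      rcases (by omega : i + 1 < n ∨ i + 1 = n) with h | h
      · rw [Nat.mod_eq_of_lt h] at h6
        omega
      · rw [h, Nat.mod_self] at h6
        exact h6
    rw [← e1]
    exact ⟨h7, h8⟩
  · right
    have c1 : ω (hdv y) = false := (h.resolve_left fun h => hnN h.1).2
    have c2 : ω (hdv (nx ω y)) = true := by
      rw [c1] at hne
      simpa using hne.symm
    rw [c1] at ci
    rw [c2] at cj
    have ci' : i < ka := by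
      by_contra h
      rw [decide_eq_true h] at ci
      exact absurd ci (by decide)
    have cj' : ¬ j < ka := by
      intro h
      rw [decide_eq_false (not_not.2 h)] at cj
      exact absurd cj (by decide)
    have e1 : i = 0 := by
      rcases (by omega : j + 1 < n ∨ j + 1 = n) with h | h
      · rw [Nat.mod_eq_of_lt h] at h6
        omega
      · rw [h, Nat.mod_self] at h6
        exact h6
    rw [← e1]
    exact ⟨h7, h8⟩

/-- **The far side of a family of rows.** -/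
theorem exists_farH (F : Fam θ β r q D u ka c N s e) (hA : ArcH r q u c N s e)
    (hcol : ∀ z < n, InK n c N s e z → ω (sqL (q (z : ZMod n)) (u z - 1)) = decide (¬ z < ka))
    (hB1 : ∀ v ∈ endK q u c N s e, v ∈ B)
    (hB2 : ∀ y ∈ bS D, y ∉ bS (uI r) → hdv y ∈ B) (hl : IsLoop ω ℓ) (hv : ¬ VisL B ℓ)
    (hz : ∃ z ∈ ℓ, hdv z ∈ uI r ∧ tlv z ∈ uI r) : ∃ zb, FarH D (uI r) ω ℓ zb := by
  have hnv : ∀ y ∈ ℓ, hdv y ∉ B := fun y hy h => hv ⟨y, hy, h⟩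
  -- the first two conditions
  have hout : ∀ y ∈ ℓ, hdv y ∉ uI r → hdv y ∉ D → hdv (nx ω y) ∉ D := by
    intro y hy h1 h2 h3
    have h4 : nx ω y ∈ bS D := mem_bS.2 (Or.inl ⟨h3, by rw [tlv_nx]; exact h2⟩)
    refine hnv _ (H199.loop_nx hl hy) (hB2 _ h4 fun h => ?_)
    rcases mem_bS.1 h with h | h
    · exact F.nin h.1 h3
    · exact h1 (by have := h.2; rwa [tlv_nx] at this)
  have harc : ∀ y ∈ ℓ, tlv y ∉ uI r → tlv y ∉ D → hdv y ∈ uI r → hdv (nx ω y) ∈ uI r ∧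
      (ω (hdv y) = ω (hdv (nx ω y)) →
        hdv (nx ω (nx ω y)) ∉ uI r ∧ hdv (nx ω (nx ω y)) ∉ D) ∧
      (ω (hdv y) ≠ ω (hdv (nx ω y)) →
        (ls (nx ω y) = q ((0 : ℕ) : ZMod n) ∧ rs (nx ω y) = yK q u 0) ∨
          (rs (nx ω y) = q ((0 : ℕ) : ZMod n) ∧ ls (nx ω y) = yK q u 0)) := by
    intro y hy h1 h2 h3
    obtain ⟨i, j, hs, hF⟩ := far_arc F hA hB1 hl hv hy h2 h1 h3
    have k2 : hdv (nx ω y) ∈ uI r := hs.hd1 ▸ sq_mem F hs.hj hs.rj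
    have k3 := arc_out hl hy h3 h1 hs k2
    have hnN : ¬ IsN q y i := by
      intro h
      rcases near_sq F h with ⟨h6, -⟩ | ⟨h6, -⟩
      · exact F.nin h3 h6
      · exact h2 h6
    have hout : IsF q u (nx ω (nx ω y)) j → hdv (nx ω (nx ω y)) ∉ D := by
      intro h
      rcases far_sq F hs.rj h with ⟨h5, -⟩ | ⟨-, h5⟩
      · exact absurd (h5 ▸ sq_mem F hs.hj hs.rj) k3
      · exact h5
    refine ⟨k2, fun hcc => ⟨k3, ?_⟩, fun hcc => far_site F hcol hs h3 h2 hcc⟩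
    rcases hs.cs with ⟨h, -, -, -, -, -, h5⟩ | ⟨h, -, -, -, -, -, h5⟩
    · exact hout (h5 (by rw [← hcc]; exact (h.resolve_left fun h => hnN h.1).2))
    · exact hout (h5 (by rw [← hcc]; exact (h.resolve_left fun h => hnN h.1).2))
  by_cases h : ∃ y ∈ ℓ, tlv y ∉ uI r ∧ tlv y ∉ D ∧ hdv y ∈ uI r ∧ ω (hdv y) ≠ ω (hdv (nx ω y))
  · obtain ⟨y₀, hy₀, k1, k2, k3, k4⟩ := h
    obtain ⟨m1, -, m3⟩ := harc y₀ hy₀ k1 k2 k3
    refine ⟨nx ω y₀, fun v hv => F.nin hv, hout, fun y hy h1 h2 h3 => ?_, m1,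
      by rw [tlv_nx]; exact k3⟩
    obtain ⟨n1, n2, n3⟩ := harc y hy h1 h2 h3
    refine ⟨n1, n2, fun hcc => ?_⟩
    have hpar : ∀ a b : Ed, ls a ≠ rs b := by
      intro a b h
      have h1 := ls_even a
      have h2 := rs_odd b
      rw [h] at h1
      exact (Int.not_even_iff_odd.2 h2) h1
    rcases m3 k4 with ⟨a1, a2⟩ | ⟨a1, a2⟩ <;> rcases n3 hcc with ⟨b1, b2⟩ | ⟨b1, b2⟩
    · exact H640.ND.ed_ext (b1.trans a1.symm) (b2.trans a2.symm)
    · exact absurd (a1.trans b1.symm) (hpar _ _)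
    · exact absurd (b1.trans a1.symm) (hpar _ _)
    · exact H640.ND.ed_ext (b2.trans a2.symm) (b1.trans a1.symm)
  · obtain ⟨z, -, hz1, hz2⟩ := hz
    refine ⟨z, fun v hv => F.nin hv, hout, fun y hy h1 h2 h3 => ?_, hz1, hz2⟩
    obtain ⟨n1, n2, -⟩ := harc y hy h1 h2 h3
    exact ⟨n1, n2, fun hcc => absurd ⟨y, hy, h1, h2, h3, hcc⟩ h⟩

/-- **(C6)**, both states. -/
theorem far_uniq (F : Fam θ β r q D u ka c N s e) (hA : ArcH r q u c N s e)
    (hcol : ∀ z < n, InK n c N s e z → ω (sqL (q (z : ZMod n)) (u z - 1)) = decide (¬ z < ka))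
    (hB1 : ∀ v ∈ endK q u c N s e, v ∈ B)
    (hB2 : ∀ y ∈ bS D, y ∉ bS (uI r) → hdv y ∈ B) (hl : IsLoop ω ℓ) (hv : ¬ VisL B ℓ)
    (hz : ∃ z ∈ ℓ, hdv z ∈ uI r ∧ tlv z ∈ uI r) {g g' : Ed} (hg : g ∈ ℓ) (hg' : g' ∈ ℓ)
    (g1 : hdv g ∉ uI r) (g2 : tlv g ∈ uI r) (g3 : hdv g ∉ D)
    (g1' : hdv g' ∉ uI r) (g2' : tlv g' ∈ uI r) (g3' : hdv g' ∉ D) {b : Bool} {σ : ℤ}
    (hσ : σ = if b = true then -1 else 1)
    (c1 : ω (tlv g) = b) (c2 : ω (hdv ((nx ω)^[ret (nx ω) (bS (uI r)) g] g)) = b)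
    (c1' : ω (tlv g') = b) (c2' : ω (hdv ((nx ω)^[ret (nx ω) (bS (uI r)) g'] g')) = b)
    {φ φ' : ℤ × ℤ → ℤ} (hφ : ExtPot (D ∪ uI r) (exc (uI r) ω g) σ φ)
    (hφ' : ExtPot (D ∪ uI r) (exc (uI r) ω g') σ φ') : g = g' := by
  obtain ⟨zb, H⟩ := exists_farH F hA hcol hB1 hB2 hl hv hz
  exact far_two H (extConn_fam F) hl hg hg' g1 g2 g1' g2' g3 g3' c1 c2 c1' c2' hσ hφ hφ'

/-- **(C6)**, closed squares. -/
theorem far_closed (F : Fam θ β r q D u ka c N s e) (hA : ArcH r q u c N s e)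
    (hcol : ∀ z < n, InK n c N s e z → ω (sqL (q (z : ZMod n)) (u z - 1)) = decide (¬ z < ka))
    (hB1 : ∀ v ∈ endK q u c N s e, v ∈ B)
    (hB2 : ∀ y ∈ bS D, y ∉ bS (uI r) → hdv y ∈ B) (hl : IsLoop ω ℓ) (hv : ¬ VisL B ℓ)
    (hz : ∃ z ∈ ℓ, hdv z ∈ uI r ∧ tlv z ∈ uI r) {g g' : Ed} (hg : g ∈ ℓ) (hg' : g' ∈ ℓ)
    (g1 : hdv g ∉ uI r) (g2 : tlv g ∈ uI r) (g3 : hdv g ∉ D)
    (g1' : hdv g' ∉ uI r) (g2' : tlv g' ∈ uI r) (g3' : hdv g' ∉ D)
    (c1 : ω (tlv g) = false) (c2 : ω (hdv ((nx ω)^[ret (nx ω) (bS (uI r)) g] g)) = false)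
    (c1' : ω (tlv g') = false) (c2' : ω (hdv ((nx ω)^[ret (nx ω) (bS (uI r)) g'] g')) = false)
    {φ φ' : ℤ × ℤ → ℤ} (hφ : ExtPot (D ∪ uI r) (exc (uI r) ω g) 1 φ)
    (hφ' : ExtPot (D ∪ uI r) (exc (uI r) ω g') 1 φ') : g = g' :=
  far_uniq F hA hcol hB1 hB2 hl hv hz hg hg' g1 g2 g3 g1' g2' g3' (by simp) c1 c2 c1' c2' hφ hφ'

/-- **(C6)**, open squares. -/
theorem far_open (F : Fam θ β r q D u ka c N s e) (hA : ArcH r q u c N s e)
    (hcol : ∀ z < n, InK n c N s e z → ω (sqL (q (z : ZMod n)) (u z - 1)) = decide (¬ z < ka))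
    (hB1 : ∀ v ∈ endK q u c N s e, v ∈ B)
    (hB2 : ∀ y ∈ bS D, y ∉ bS (uI r) → hdv y ∈ B) (hl : IsLoop ω ℓ) (hv : ¬ VisL B ℓ)
    (hz : ∃ z ∈ ℓ, hdv z ∈ uI r ∧ tlv z ∈ uI r) {g g' : Ed} (hg : g ∈ ℓ) (hg' : g' ∈ ℓ)
    (g1 : hdv g ∉ uI r) (g2 : tlv g ∈ uI r) (g3 : hdv g ∉ D)
    (g1' : hdv g' ∉ uI r) (g2' : tlv g' ∈ uI r) (g3' : hdv g' ∉ D)
    (c1 : ω (tlv g) = true) (c2 : ω (hdv ((nx ω)^[ret (nx ω) (bS (uI r)) g] g)) = true)
    (c1' : ω (tlv g') = true) (c2' : ω (hdv ((nx ω)^[ret (nx ω) (bS (uI r)) g'] g')) = true)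
    {φ φ' : ℤ × ℤ → ℤ} (hφ : ExtPot (D ∪ uI r) (exc (uI r) ω g) (-1) φ)
    (hφ' : ExtPot (D ∪ uI r) (exc (uI r) ω g') (-1) φ') : g = g' :=
  far_uniq F hA hcol hB1 hB2 hl hv hz hg hg' g1 g2 g3 g1' g2' g3' (by simp) c1 c2 c1' c2' hφ hφ'

end Vale.Agent.P167.H398.T
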