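import Vale.Agent.P167.H398.T.Far

/-!
# P167, general `q`, (TRACK): two exterior excursions of the same kind are equal
-/

namespace Vale.Agent.P167.H398.T

open Finset
open Vale.Agent.P167.BR
open Vale.Agent.P167.FK
open Vale.Agent.P167.XDL (bS mem_bS)
open Vale.Agent.P167.H199 (loop_iter Returns ret)
open Vale.Agent.P167.QX (exc ExtPot ExtConn mem_exc exc_last exc_ni exc_nx exc_disj far_edge
  returns_loop out_stays)

variable {D K I : Finset (ℤ × ℤ)} {ω : Cfg} {ℓ : Finset Ed} {e e' y z zb : Ed}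
  {φ φ' : ℤ × ℤ → ℤ} {b : Bool} {σ : ℤ}

/-- The tail of an inner edge of an excursion. -/
theorem exc_tl (h1 : hdv e ∉ K) {k : ℕ} (h0 : 0 < k) (hk : k ≤ ret (nx ω) (bS K) e) :
    tlv ((nx ω)^[k] e) ∉ K := by
  obtain ⟨m, rfl⟩ : ∃ m, k = m + 1 := ⟨k - 1, by omega⟩
  rw [Function.iterate_succ_apply', tlv_nx]
  exact out_stays h1 (by omega)

theorem vl_exc (h : hdv y ∉ K ∨ tlv y ∉ K) : vl K ω b φ y = φ (sd b y) := by
  unfold vl
  rw [if_neg fun h' => h.elim (fun h => h h'.1) fun h => h h'.2]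

theorem two_lt (H : FarH D K ω ℓ zb) (hI : ExtConn (D ∪ K)) (hl : IsLoop ω ℓ) (he : e ∈ ℓ)
    (he' : e' ∈ ℓ) (h1 : hdv e ∉ K) (h2 : tlv e ∈ K) (h1' : hdv e' ∉ K) (h2' : tlv e' ∈ K)
    (h3 : hdv e ∉ D)
    (hc1 : ω (tlv e) = b) (hc2 : ω (hdv ((nx ω)^[ret (nx ω) (bS K) e] e)) = b)
    (hc1' : ω (tlv e') = b) (hc2' : ω (hdv ((nx ω)^[ret (nx ω) (bS K) e'] e')) = b)
    (hσ : σ = if b = true then -1 else 1)
    (hφ : ExtPot (D ∪ K) (exc K ω e) σ φ) (hφ' : ExtPot (D ∪ K) (exc K ω e') σ φ')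
    (hne : e ≠ e') {m : ℕ} (hm : (nx ω)^[m] e = e') (hz : ∀ k ≤ m, (nx ω)^[k] e ≠ zb) : False := by
  have hr : Returns (nx ω) (bS K) e := returns_loop hl he (mem_bS.2 (Or.inr ⟨h1, h2⟩))
  have hr' : Returns (nx ω) (bS K) e' := returns_loop hl he' (mem_bS.2 (Or.inr ⟨h1', h2'⟩))
  -- the ends of the excursions
  have hin : ∀ {e : Ed}, hdv e ∉ K → ω (tlv e) = b → ∀ y ∈ exc K ω e, tlv y ∈ K → ω (tlv y) = b := by
    intro e g1 g2 y hy hyK
    obtain ⟨k, hk, rfl⟩ := mem_exc.1 hy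
    rcases Nat.eq_zero_or_pos k with rfl | h0
    · exact g2
    · exact absurd hyK (exc_tl g1 h0 hk)
  have hout : ∀ {e : Ed}, hdv e ∉ K → ω (hdv ((nx ω)^[ret (nx ω) (bS K) e] e)) = b →
      ∀ y ∈ exc K ω e, hdv y ∈ K → ω (hdv y) = b := by
    intro e g1 g2 y hy hyK
    obtain ⟨k, hk, rfl⟩ := mem_exc.1 hy
    rcases hk.lt_or_eq with h | h
    · exact absurd hyK (out_stays g1 h)
    · rw [h]; exact g2
  have hA := fun y hy => exc_nx (x := y) h1 h2 hr hy
  have hA' := fun y hy => exc_nx (x := y) h1' h2' hr' hy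
  have hF : Fr D K ω ℓ e := Or.inl ⟨h3, H.disj _ h2, Or.inl h1⟩
  -- no edge of the excursions is `zb`
  have hz' : ∀ k ≤ m + ret (nx ω) (bS K) e', (nx ω)^[k] e ≠ zb := by
    intro k hk
    rcases Nat.lt_or_ge m k with h | h
    · intro h4
      obtain ⟨j, rfl⟩ := Nat.exists_eq_add_of_le' h.le
      rw [Function.iterate_add_apply, hm] at h4
      have := exc_ni (x := zb) h1' hr' (h4 ▸ mem_exc.2 ⟨j, by omega, rfl⟩)
      rcases this with g | g
      · exact g H.zb.1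
      · exact g H.zb.2
    · exact hz k h
  -- `ret e ≤ m`
  have hle : ret (nx ω) (bS K) e ≤ m := by
    by_contra h
    rcases Nat.eq_zero_or_pos m with rfl | h0
    · exact hne hm
    · exact exc_tl h1 h0 (by omega) (hm ▸ h2')
  have e0 : e ∈ exc K ω e := mem_exc.2 ⟨0, Nat.zero_le _, rfl⟩
  have e0' : e' ∈ exc K ω e' := mem_exc.2 ⟨0, Nat.zero_le _, rfl⟩
  have k1 : ∀ x ∈ exc K ω e', φ (sd b x) = φ (sd b e) := by
    intro x hx
    have hx1 := exc_ni h1' hr' hx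
    obtain ⟨k, hk, rfl⟩ := mem_exc.1 hx
    have := (far_run (b := b) H hl he hA hφ.jump (hin h1 hc1) (hout h1 hc2) hF (m := k + m)
      fun i hi => hz' i (by omega)).2
    rw [Function.iterate_add_apply, hm, vl_exc hx1, vl_exc (Or.inl h1)] at this
    exact this
  have k2 : ∀ x ∈ exc K ω e, φ' (sd b x) = φ' (sd b e') := by
    intro x hx
    have hx1 := exc_ni h1 hr hx
    obtain ⟨k, hk, rfl⟩ := mem_exc.1 hx
    have g1 := (far_run (b := b) H hl he hA' hφ'.jump (hin h1' hc1') (hout h1' hc2') hF (m := k)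
      fun i hi => hz' i (by omega)).2
    have g2 := (far_run (b := b) H hl he hA' hφ'.jump (hin h1' hc1') (hout h1' hc2') hF (m := m)
      fun i hi => hz' i (by omega)).2
    rw [vl_exc hx1] at g1
    rw [hm, vl_exc (Or.inl h1')] at g2
    rw [g1, g2]
  have hd : ∀ x ∈ exc K ω e, x ∉ exc K ω e' := fun x hx => exc_disj h1 h2 hr h1' h2' hr' hne hx
  have hDK : hdv e ∉ D ∪ K := fun h => (mem_union.1 h).elim h3 h1
  cases b with
  | false =>
    have hσ' : σ = 1 := by rw [hσ, if_neg (by decide)]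
    subst hσ'
    refine ext_two hI hφ hφ' e0 (Or.inl hDK) hd (fun x hx => ?_) fun x hx => ?_
    · have := k1 x hx
      unfold sd at this
      rw [if_neg (by decide), if_neg (by decide), hφ.left e e0] at this
      rw [this]; norm_num
    · have := k2 x hx
      unfold sd at this
      rw [if_neg (by decide), if_neg (by decide), hφ'.left e' e0'] at this
      rw [this]; norm_num
  | true =>
    have hσ' : σ = -1 := by rw [hσ, if_pos rfl]
    subst hσ'
    refine ext_two' hI hφ hφ' e0 (Or.inl hDK) hd (fun x hx => ?_) fun x hx => ?_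
    · have := k1 x hx
      unfold sd at this
      rw [if_pos rfl, if_pos rfl, hφ.right e e0] at this
      rw [this]; norm_num
    · have := k2 x hx
      unfold sd at this
      rw [if_pos rfl, if_pos rfl, hφ'.right e' e0'] at this
      rw [this]; norm_num

/-- **Two exterior excursions of the same kind are equal.** -/
theorem far_two (H : FarH D K ω ℓ zb) (hI : ExtConn (D ∪ K)) (hl : IsLoop ω ℓ) (he : e ∈ ℓ)
    (he' : e' ∈ ℓ) (h1 : hdv e ∉ K) (h2 : tlv e ∈ K) (h1' : hdv e' ∉ K) (h2' : tlv e' ∈ K)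
    (h3 : hdv e ∉ D) (h3' : hdv e' ∉ D)
    (hc1 : ω (tlv e) = b) (hc2 : ω (hdv ((nx ω)^[ret (nx ω) (bS K) e] e)) = b)
    (hc1' : ω (tlv e') = b) (hc2' : ω (hdv ((nx ω)^[ret (nx ω) (bS K) e'] e')) = b)
    (hσ : σ = if b = true then -1 else 1)
    (hφ : ExtPot (D ∪ K) (exc K ω e) σ φ) (hφ' : ExtPot (D ∪ K) (exc K ω e') σ φ') : e = e' := by
  by_contra hne
  obtain ⟨y₀, hy₀, i, j, hi, hj, hk⟩ := cut_loop (zb := zb) hl he he'
    (fun h => h1 (h ▸ H.zb.1)) (fun h => h1' (h ▸ H.zb.1))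
  rcases le_total i j with h | h
  · obtain ⟨m, rfl⟩ := Nat.exists_eq_add_of_le' h
    refine two_lt H hI hl he he' h1 h2 h1' h2' h3 hc1 hc2 hc1' hc2' hσ hφ hφ' hne (m := m) ?_
      fun k hk' => ?_
    · rw [← hi, ← Function.iterate_add_apply, hj]
    · rw [← hi, ← Function.iterate_add_apply]
      exact hk _ (Or.inr (by omega))
  · obtain ⟨m, rfl⟩ := Nat.exists_eq_add_of_le' h
    refine two_lt H hI hl he' he h1' h2' h1 h2 h3' hc1' hc2' hc1 hc2 hσ hφ' hφ (Ne.symm hne) (m := m) ?_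
      fun k hk' => ?_
    · rw [← hj, ← Function.iterate_add_apply, hi]
    · rw [← hj, ← Function.iterate_add_apply]
      exact hk _ (Or.inl (by omega))

end Vale.Agent.P167.H398.T
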